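import Mathlib

open Finset

namespace Vale.Agent.Lib.Helper9.P262M

/-- A finite minimax statement: if for all nonnegative weights some point of a finite set has
weighted average of its coordinates at most `D`, then some probability distribution on the set
has every coordinate mean at most `D`. -/
theorem minimax_finite {X : Type} [Fintype X] (n : ℕ) (f : X → Fin n → ℝ) (D : ℝ)
    (h : ∀ ν : Fin n → ℝ, (∀ k, 0 ≤ ν k) → ∃ x, ∑ k, ν k * f x k ≤ D * ∑ k, ν k) :
    ∃ p : X → ℝ, (∀ x, 0 ≤ p x) ∧ ∑ x, p x = 1 ∧ ∀ k, ∑ x, p x * f x k ≤ D := by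
  classical
  let T : (X → ℝ) →ₗ[ℝ] (Fin n → ℝ) :=
    { toFun := fun p k => ∑ x, p x * (f x k - D)
      map_add' := by
        intro p q
        ext k
        simp [add_mul, Finset.sum_add_distrib]
      map_smul' := by
        intro a p
        ext k
        simp [Finset.mul_sum, mul_assoc] }
  have hT : ∀ p k, T p k = ∑ x, p x * (f x k - D) := fun p k => rfl
  let K : Set (Fin n → ℝ) := T '' stdSimplex ℝ X
  let B : Set (Fin n → ℝ) := {y | ∀ k, y k ≤ 0}
  by_contra hcon
  have hdisj : Disjoint K B := by
    rw [Set.disjoint_left]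
    rintro y ⟨p, hp, rfl⟩ hy
    apply hcon
    refine ⟨p, hp.1, hp.2, fun k => ?_⟩
    have h1 : T p k ≤ 0 := hy k
    have e : T p k = ∑ x, p x * f x k - D := by
      rw [hT]
      simp only [mul_sub, Finset.sum_sub_distrib, ← Finset.sum_mul, hp.2, one_mul]
    linarith
  have hKc : IsCompact K :=
    (isCompact_stdSimplex ℝ X).image (LinearMap.continuous_of_finiteDimensional T)
  have hKconv : Convex ℝ K := (convex_stdSimplex ℝ X).linear_image T
  have hBclosed : IsClosed B := by
    have : B = ⋂ k, {y : Fin n → ℝ | y k ≤ 0} := by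
      ext y
      simp [B]
    rw [this]
    exact isClosed_iInter fun k => isClosed_le (continuous_apply k) continuous_const
  have hBconv : Convex ℝ B := by
    intro y hy z hz a b ha hb _ k
    have h1 := hy k
    have h2 := hz k
    simp only [Pi.add_apply, Pi.smul_apply, smul_eq_mul]
    nlinarith
  obtain ⟨g, s, t, hs, hst, ht⟩ :=
    geometric_hahn_banach_compact_closed hKconv hKc hBconv hBclosed hdisj
  have ht0 : t < 0 := by
    have := ht 0 (by intro k; simp)
    simpa using this
  let e : Fin n → Fin n → ℝ := fun k j => if k = j then 1 else 0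
  let ν : Fin n → ℝ := fun k => - g (e k)
  have hν : ∀ k, 0 ≤ ν k := by
    intro k
    by_contra hneg
    have hg : 0 < g (e k) := by
      have : ¬ 0 ≤ - g (e k) := hneg
      linarith
    have hmem : (-((1 - t) / g (e k))) • e k ∈ B := by
      intro j
      have hpos : 0 ≤ (1 - t) / g (e k) := by
        apply div_nonneg <;> linarith
      simp only [Pi.smul_apply, smul_eq_mul, e]
      split_ifs <;> nlinarith
    have h2 := ht _ hmem
    rw [map_smul, smul_eq_mul] at h2
    have h3 : -((1 - t) / g (e k)) * g (e k) = t - 1 := by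
      field_simp
      ring
    linarith
  have hg : ∀ y : Fin n → ℝ, g y = - ∑ k, ν k * y k := by
    intro y
    have h1 := LinearMap.pi_apply_eq_sum_univ (g : (Fin n → ℝ) →ₗ[ℝ] ℝ) y
    have h2 : g y = ∑ i, y i • g (e i) := h1
    rw [h2, ← Finset.sum_neg_distrib]
    apply Finset.sum_congr rfl
    intro i _
    simp only [ν, smul_eq_mul]
    ring
  obtain ⟨x, hx⟩ := h ν hν
  have hxK : T (Pi.single x 1) ∈ K := ⟨Pi.single x 1, single_mem_stdSimplex ℝ x, rfl⟩
  have h1 := hs _ hxK
  rw [hg] at h1
  have hTx : ∀ k, T (Pi.single x 1) k = f x k - D := by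
    intro k
    rw [hT]
    simp [Pi.single_apply]
  simp only [hTx] at h1
  have e : ∑ k, ν k * (f x k - D) = ∑ k, ν k * f x k - D * ∑ k, ν k := by
    simp only [mul_sub, Finset.sum_sub_distrib, Finset.mul_sum]
    congr 1
    apply Finset.sum_congr rfl
    intros
    ring
  linarith

end Vale.Agent.Lib.Helper9.P262M
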