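import Vale.Agent.Lib.Helper9.P262.Lifted
import Vale.Agent.Lib.Helper9.P262.Minimax

/-!
# Second moments of all initial sums under one distribution on sign sequences

From the weighted mean square bound and the finite minimax statement: for unit-ball vectors
`v 0, v 1, ...` of Euclidean `d`-space and every `N` there are finitely many sign sequences with
probabilities such that, for every `k ≤ N`, the mean of `‖∑ i < k, ε i • v i‖ ^ 2` is at most `d`.
An orthonormal basis shows that `d` cannot be lowered.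
-/

open scoped RealInnerProductSpace
open Finset

namespace Vale.Agent.Lib.Helper9.P262S

open Vale.Agent.Lib.Helper9.P262L Vale.Agent.Lib.Helper9.P262M

/-- the sign sequence of a pattern -/
noncomputable def sgn {N : ℕ} (x : Fin N → Bool) (i : ℕ) : ℝ :=
  if h : i < N then (if x ⟨i, h⟩ then 1 else -1) else 1

theorem sgn_sign {N : ℕ} (x : Fin N → Bool) (i : ℕ) : sgn x i = 1 ∨ sgn x i = -1 := by
  unfold sgn
  split_ifs <;> simp

/-- **Second moments of all initial sums.** -/
theorem second_moment (d N : ℕ) (v : ℕ → EuclideanSpace ℝ (Fin d)) (hv : ∀ i, ‖v i‖ ≤ 1) :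
    ∃ (m : ℕ) (p : Fin m → ℝ) (ε : Fin m → ℕ → ℝ), (∀ j, 0 ≤ p j) ∧ ∑ j, p j = 1 ∧
      (∀ j i, ε j i = 1 ∨ ε j i = -1) ∧
      ∀ k ≤ N, ∑ j, p j * ‖∑ i ∈ range k, ε j i • v i‖ ^ 2 ≤ d := by
  classical
  let f : (Fin N → Bool) → Fin (N + 1) → ℝ :=
    fun x k => ‖∑ i ∈ range (k : ℕ), sgn x i • v i‖ ^ 2
  have hmm : ∀ ν : Fin (N + 1) → ℝ, (∀ k, 0 ≤ ν k) →
      ∃ x, ∑ k, ν k * f x k ≤ d * ∑ k, ν k := by
    intro ν hν
    let ν' : ℕ → ℝ := fun k => if h : k < N + 1 then ν ⟨k, h⟩ else 0
    have hν' : ∀ k, 0 ≤ ν' k := by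
      intro k
      simp only [ν']
      split_ifs
      · exact hν _
      · exact le_rfl
    obtain ⟨ε, hε, hle⟩ := mean_square_initial d N v hv ν' hν'
    refine ⟨fun i => decide (ε i = 1), ?_⟩
    have hsg : ∀ i, i < N → sgn (fun i : Fin N => decide (ε i = 1)) i = ε i := by
      intro i hi
      unfold sgn
      rw [dif_pos hi]
      rcases hε i with h | h
      · simp [h]
      · simp only [h]
        norm_num
    have e1 : ∑ k, ν k * f (fun i : Fin N => decide (ε i = 1)) k
        = ∑ k ∈ range (N + 1), ν' k * ‖∑ i ∈ range k, ε i • v i‖ ^ 2 := by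
      rw [← Fin.sum_univ_eq_sum_range (fun k => ν' k * ‖∑ i ∈ range k, ε i • v i‖ ^ 2) (N + 1)]
      apply Finset.sum_congr rfl
      intro k _
      have h1 : ν' k = ν k := by
        simp only [ν']
        rw [dif_pos k.isLt]
      have h2 : ∑ i ∈ range (k : ℕ), sgn (fun i : Fin N => decide (ε i = 1)) i • v i
          = ∑ i ∈ range (k : ℕ), ε i • v i := by
        apply Finset.sum_congr rfl
        intro i hi
        rw [hsg i (by have := Finset.mem_range.mp hi; have := k.isLt; omega)]
      simp only [f]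
      rw [h1, h2]
    have e2 : ∑ k, ν k = ∑ k ∈ range (N + 1), ν' k := by
      rw [← Fin.sum_univ_eq_sum_range (fun k => ν' k) (N + 1)]
      apply Finset.sum_congr rfl
      intro k _
      simp only [ν']
      rw [dif_pos k.isLt]
    rw [e1, e2]
    exact hle
  obtain ⟨p, hp0, hp1, hpk⟩ := minimax_finite (N + 1) f d hmm
  let e := Fintype.equivFin (Fin N → Bool)
  refine ⟨Fintype.card (Fin N → Bool), fun j => p (e.symm j), fun j => sgn (e.symm j),
    fun j => hp0 _, ?_, fun j i => sgn_sign _ i, ?_⟩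
  · rw [Equiv.sum_comp e.symm p]
    exact hp1
  · intro k hk
    have := hpk ⟨k, by omega⟩
    rw [Equiv.sum_comp e.symm (fun x => p x * ‖∑ i ∈ range k, sgn x i • v i‖ ^ 2)]
    exact this

/-- the bound cannot be lowered: an orthonormal basis -/
theorem sharp (d : ℕ) : ∃ v : ℕ → EuclideanSpace ℝ (Fin d), (∀ i, ‖v i‖ ≤ 1) ∧
    ∀ ε : ℕ → ℝ, (∀ i, ε i = 1 ∨ ε i = -1) → ‖∑ i ∈ range d, ε i • v i‖ ^ 2 = d := by
  classical
  refine ⟨fun i => if h : i < d then EuclideanSpace.single ⟨i, h⟩ 1 else 0, ?_, ?_⟩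
  · intro i
    by_cases h : i < d
    · simp [h]
    · simp [h]
  · intro ε hε
    rw [EuclideanSpace.norm_sq_eq]
    have hc : ∀ j : Fin d, (∑ i ∈ range d,
        ε i • (if h : i < d then EuclideanSpace.single (⟨i, h⟩ : Fin d) (1 : ℝ) else 0)) j
          = ε j := by
      intro j
      rw [WithLp.ofLp_sum, Finset.sum_apply, Finset.sum_eq_single (j : ℕ)]
      · simp [j.isLt]
      · intro i hi hij
        have hi' : i < d := Finset.mem_range.mp hi
        have hne : j ≠ ⟨i, hi'⟩ := by
          intro h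
          apply hij
          rw [h]
        simp [hi', hne]
      · intro hj
        exact absurd (Finset.mem_range.mpr j.isLt) hj
    simp only [hc]
    have h1 : ∀ j : Fin d, ‖ε j‖ ^ 2 = 1 := by
      intro j
      rcases hε j with h | h <;> simp [h]
    rw [Finset.sum_congr rfl (fun j _ => h1 j)]
    simp

end Vale.Agent.Lib.Helper9.P262S
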