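import Vale.Agent.Lib.Helper9.P262.Tests
import Vale.Agent.Lib.Helper9.P262.Second

/-!
# Second moments of all initial sums in all directions under one distribution on sign sequences

For unit-ball vectors `v 0, v 1, ...` of a real inner product space and every `N` there are
finitely many sign sequences with probabilities such that, for every `k ≤ N` and every vector `θ`,
the mean of `⟪∑ i < k, ε i • v i, θ⟫ ^ 2` is at most `‖θ‖ ^ 2`.

Finitely many test pairs are handled by the weighted bound of `Tests` and the finite minimax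
statement; all pairs at once follow from the compactness of the simplex of distributions.
-/

open scoped RealInnerProductSpace
open Finset

namespace Vale.Agent.Lib.Helper9.P262C

open Vale.Agent.Lib.Helper9.P262T Vale.Agent.Lib.Helper9.P262M Vale.Agent.Lib.Helper9.P262S

variable {F : Type*} [NormedAddCommGroup F] [InnerProductSpace ℝ F]

theorem finite_tests (v : ℕ → F) (hv : ∀ i, ‖v i‖ ≤ 1) (N n : ℕ) (κ : Fin n → ℕ)
    (hκ : ∀ r, κ r ≤ N) (θ : Fin n → F) :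
    ∃ p : (Fin N → Bool) → ℝ, (∀ x, 0 ≤ p x) ∧ ∑ x, p x = 1 ∧
      ∀ r, ∑ x, p x * ⟪∑ i ∈ range (κ r), sgn x i • v i, θ r⟫ ^ 2 ≤ ‖θ r‖ ^ 2 := by
  classical
  let f : (Fin N → Bool) → Fin n → ℝ :=
    fun x r => ⟪∑ i ∈ range (κ r), sgn x i • v i, θ r⟫ ^ 2 - ‖θ r‖ ^ 2
  have hmm : ∀ ν : Fin n → ℝ, (∀ r, 0 ≤ ν r) → ∃ x, ∑ r, ν r * f x r ≤ 0 * ∑ r, ν r := by
    intro ν hν
    obtain ⟨ε, hε, hle⟩ := multi_test v hv N n κ hκ (fun r => Real.sqrt (ν r) • θ r)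
    refine ⟨fun i => decide (ε i = 1), ?_⟩
    have hsg : ∀ i, i < N → sgn (fun i : Fin N => decide (ε i = 1)) i = ε i := by
      intro i hi
      unfold sgn
      rw [dif_pos hi]
      rcases hε i with h | h
      · simp [h]
      · simp only [h]
        norm_num
    have e1 : ∀ r, ν r * f (fun i : Fin N => decide (ε i = 1)) r
        = ⟪∑ i ∈ range (κ r), ε i • v i, Real.sqrt (ν r) • θ r⟫ ^ 2
          - ‖Real.sqrt (ν r) • θ r‖ ^ 2 := by
      intro r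
      have h2 : ∑ i ∈ range (κ r), sgn (fun i : Fin N => decide (ε i = 1)) i • v i
          = ∑ i ∈ range (κ r), ε i • v i := by
        apply Finset.sum_congr rfl
        intro i hi
        rw [hsg i (by have := Finset.mem_range.mp hi; have := hκ r; omega)]
      simp only [f]
      rw [h2, inner_smul_right, norm_smul, mul_pow, mul_pow, Real.norm_eq_abs, sq_abs,
        Real.sq_sqrt (hν r)]
      ring
    rw [Finset.sum_congr rfl (fun r _ => e1 r), Finset.sum_sub_distrib]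
    linarith
  obtain ⟨p, hp0, hp1, hpk⟩ := minimax_finite n f 0 hmm
  refine ⟨p, hp0, hp1, fun r => ?_⟩
  have h1 := hpk r
  have e2 : ∑ x, p x * f x r
      = ∑ x, p x * ⟪∑ i ∈ range (κ r), sgn x i • v i, θ r⟫ ^ 2 - ‖θ r‖ ^ 2 := by
    simp only [f, mul_sub, Finset.sum_sub_distrib, ← Finset.sum_mul, hp1, one_mul]
  linarith

theorem all_tests (v : ℕ → F) (hv : ∀ i, ‖v i‖ ≤ 1) (N : ℕ) :
    ∃ p : (Fin N → Bool) → ℝ, (∀ x, 0 ≤ p x) ∧ ∑ x, p x = 1 ∧
      ∀ k ≤ N, ∀ θ : F, ∑ x, p x * ⟪∑ i ∈ range k, sgn x i • v i, θ⟫ ^ 2 ≤ ‖θ‖ ^ 2 := by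
  classical
  let Z : (ℕ × F) → Set ((Fin N → Bool) → ℝ) := fun a =>
    {p | a.1 ≤ N → ∑ x, p x * ⟪∑ i ∈ range a.1, sgn x i • v i, a.2⟫ ^ 2 ≤ ‖a.2‖ ^ 2}
  have hclosed : ∀ a, IsClosed (Z a) := by
    intro a
    by_cases ha : a.1 ≤ N
    · have h1 : Z a = {p : (Fin N → Bool) → ℝ |
          ∑ x, p x * ⟪∑ i ∈ range a.1, sgn x i • v i, a.2⟫ ^ 2 ≤ ‖a.2‖ ^ 2} := by
        ext p
        simp [Z, ha]
      rw [h1]
      refine isClosed_le ?_ continuous_const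
      exact continuous_finsetSum _ (fun x _ => (continuous_apply x).mul continuous_const)
    · have h1 : Z a = Set.univ := by
        ext p
        simp [Z, ha]
      rw [h1]
      exact isClosed_univ
  have hfin : ∀ u : Finset (ℕ × F),
      (stdSimplex ℝ (Fin N → Bool) ∩ ⋂ a ∈ u, Z a).Nonempty := by
    intro u
    obtain ⟨p, hp0, hp1, hp⟩ := finite_tests v hv N u.card
      (fun r => min (u.equivFin.symm r).1.1 N) (fun r => min_le_right _ _)
      (fun r => (u.equivFin.symm r).1.2)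
    refine ⟨p, ⟨hp0, hp1⟩, ?_⟩
    simp only [Set.mem_iInter]
    intro a ha haN
    have h1 := hp (u.equivFin ⟨a, ha⟩)
    simp only [Equiv.symm_apply_apply] at h1
    rwa [min_eq_left haN] at h1
  obtain ⟨p, hpS, hpZ⟩ :=
    (isCompact_stdSimplex ℝ (Fin N → Bool)).inter_iInter_nonempty Z hclosed hfin
  refine ⟨p, hpS.1, hpS.2, fun k hk θ => ?_⟩
  exact Set.mem_iInter.mp hpZ (k, θ) hk

/-- **Second moments in all directions of all initial sums.** -/
theorem directional (v : ℕ → F) (hv : ∀ i, ‖v i‖ ≤ 1) (N : ℕ) :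
    ∃ (m : ℕ) (p : Fin m → ℝ) (ε : Fin m → ℕ → ℝ), (∀ j, 0 ≤ p j) ∧ ∑ j, p j = 1 ∧
      (∀ j i, ε j i = 1 ∨ ε j i = -1) ∧
      ∀ k ≤ N, ∀ θ : F, ∑ j, p j * ⟪∑ i ∈ range k, ε j i • v i, θ⟫ ^ 2 ≤ ‖θ‖ ^ 2 := by
  classical
  obtain ⟨p, hp0, hp1, hp⟩ := all_tests v hv N
  let e := Fintype.equivFin (Fin N → Bool)
  refine ⟨Fintype.card (Fin N → Bool), fun j => p (e.symm j), fun j => sgn (e.symm j),
    fun j => hp0 _, ?_, fun j i => sgn_sign _ i, ?_⟩
  · rw [Equiv.sum_comp e.symm p]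
    exact hp1
  · intro k hk θ
    rw [Equiv.sum_comp e.symm (fun x => p x * ⟪∑ i ∈ range k, sgn x i • v i, θ⟫ ^ 2)]
    exact hp k hk θ

/-- the Euclidean case, with the trace bound -/
theorem covariance (d N : ℕ) (v : ℕ → EuclideanSpace ℝ (Fin d)) (hv : ∀ i, ‖v i‖ ≤ 1) :
    ∃ (m : ℕ) (p : Fin m → ℝ) (ε : Fin m → ℕ → ℝ), (∀ j, 0 ≤ p j) ∧ ∑ j, p j = 1 ∧
      (∀ j i, ε j i = 1 ∨ ε j i = -1) ∧
      ∀ k ≤ N,
        (∀ θ : EuclideanSpace ℝ (Fin d),
          ∑ j, p j * ⟪∑ i ∈ range k, ε j i • v i, θ⟫ ^ 2 ≤ ‖θ‖ ^ 2) ∧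
        ∑ j, p j * ‖∑ i ∈ range k, ε j i • v i‖ ^ 2 ≤ d := by
  obtain ⟨m, p, ε, hp0, hp1, hε, h⟩ := directional v hv N
  refine ⟨m, p, ε, hp0, hp1, hε, fun k hk => ⟨h k hk, ?_⟩⟩
  have h1 : ∀ x : EuclideanSpace ℝ (Fin d),
      ‖x‖ ^ 2 = ∑ i, ⟪x, EuclideanSpace.single i (1 : ℝ)⟫ ^ 2 := by
    intro x
    rw [EuclideanSpace.norm_sq_eq]
    apply Finset.sum_congr rfl
    intro i _
    rw [EuclideanSpace.inner_single_right]
    simp
  calc ∑ j, p j * ‖∑ i ∈ range k, ε j i • v i‖ ^ 2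
      = ∑ j, ∑ l : Fin d,
          p j * ⟪∑ i ∈ range k, ε j i • v i, EuclideanSpace.single l (1 : ℝ)⟫ ^ 2 := by
        apply Finset.sum_congr rfl
        intro j _
        rw [h1, Finset.mul_sum]
    _ = ∑ l : Fin d, ∑ j,
          p j * ⟪∑ i ∈ range k, ε j i • v i, EuclideanSpace.single l (1 : ℝ)⟫ ^ 2 :=
        Finset.sum_comm
    _ ≤ ∑ _l : Fin d, (1 : ℝ) := by
        apply Finset.sum_le_sum
        intro l _
        have := h k hk (EuclideanSpace.single l (1 : ℝ))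
        simpa using this
    _ = d := by simp

end Vale.Agent.Lib.Helper9.P262C
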