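import Vale.Agent.Lib.Helper9.P262.Rounding

/-!
# Weighted mean squares of initial sums

For unit-ball vectors `v 0, v 1, ...` of the Euclidean space of dimension `d` and nonnegative
weights `ν 0, ..., ν N` there are signs with
`∑ k ≤ N, ν k * ‖∑ i < k, ε i • v i‖ ^ 2 ≤ d * ∑ k ≤ N, ν k`.

The vectors are lifted to the `ℓ²` sum of `N + 1` copies of the space (copy `t` holds
`sqrt (ν t) • v i` when `i < t` and `0` otherwise), the rounding lemma is applied to the lifted
vectors, and the resulting bound `G` is estimated by a Bessel-type inequality for sequential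
residuals.
-/

open scoped RealInnerProductSpace
open Finset

namespace Vale.Agent.Lib.Helper9.P262L

open Vale.Agent.Lib.Helper9.P262R

section general

variable {F : Type*} [NormedAddCommGroup F] [InnerProductSpace ℝ F]

/-- sequential residuals: `R v C k t` is `v k` made orthogonal, one after the other, to the
vectors `v j` with `j ∈ C`, `k < j < t` (each time projecting the current residual). -/
noncomputable def R (v : ℕ → F) (C : Finset ℕ) (k : ℕ) : ℕ → F
  | 0 => v k
  | t + 1 => if k < t ∧ t ∈ C then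
      R v C k t - (⟪R v C k t, v t⟫ / ‖v t‖ ^ 2) • v t else R v C k t

theorem R_zero (v : ℕ → F) (C : Finset ℕ) (k : ℕ) : R v C k 0 = v k := rfl

theorem R_succ (v : ℕ → F) (C : Finset ℕ) (k t : ℕ) :
    R v C k (t + 1) = if k < t ∧ t ∈ C then
      R v C k t - (⟪R v C k t, v t⟫ / ‖v t‖ ^ 2) • v t else R v C k t := rfl

theorem R_early (v : ℕ → F) (C : Finset ℕ) (k : ℕ) : ∀ t, t ≤ k + 1 → R v C k t = v k := by
  intro t
  induction t with
  | zero => intro _; rfl
  | succ t ih =>
    intro h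
    rw [R_succ, if_neg (by omega)]
    exact ih (by omega)

/-- the coefficients -/
noncomputable def c (v : ℕ → F) (C : Finset ℕ) (k j : ℕ) : ℝ := ⟪R v C k j, v j⟫ / ‖v j‖ ^ 2

theorem R_eq (v : ℕ → F) (C : Finset ℕ) (k : ℕ) : ∀ t,
    R v C k t = v k - ∑ j ∈ C.filter (fun j => k < j ∧ j < t), c v C k j • v j := by
  intro t
  induction t with
  | zero => simp [R_zero]
  | succ t ih =>
    rw [R_succ]
    by_cases h : k < t ∧ t ∈ C
    · rw [if_pos h]
      have e : C.filter (fun j => k < j ∧ j < t + 1)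
          = insert t (C.filter (fun j => k < j ∧ j < t)) := by
        ext j
        simp only [Finset.mem_filter, Finset.mem_insert]
        constructor
        · rintro ⟨hj, h1, h2⟩
          by_cases hjt : j = t
          · exact Or.inl hjt
          · exact Or.inr ⟨hj, h1, by omega⟩
        · rintro (rfl | ⟨hj, h1, h2⟩)
          · exact ⟨h.2, h.1, by omega⟩
          · exact ⟨hj, h1, by omega⟩
      rw [e, Finset.sum_insert (by simp)]
      change R v C k t - c v C k t • v t = _
      rw [ih]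
      abel
    · rw [if_neg h]
      have e : C.filter (fun j => k < j ∧ j < t + 1) = C.filter (fun j => k < j ∧ j < t) := by
        ext j
        simp only [Finset.mem_filter]
        constructor
        · rintro ⟨hj, h1, h2⟩
          refine ⟨hj, h1, ?_⟩
          by_contra hjt
          have : j = t := by omega
          subst this
          exact h ⟨h1, hj⟩
        · rintro ⟨hj, h1, h2⟩
          exact ⟨hj, h1, by omega⟩
      rw [e, ih]

/-- Bessel-type inequality for the sequential residuals -/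
theorem R_bessel (v : ℕ → F) (hv : ∀ i, ‖v i‖ ≤ 1) (C : Finset ℕ) : ∀ t, ∀ θ : F,
    ∑ k ∈ C.filter (fun k => k < t), ⟪R v C k t, θ⟫ ^ 2 ≤ ‖θ‖ ^ 2 := by
  intro t
  induction t with
  | zero => intro θ; simp
  | succ t ih =>
    intro θ
    by_cases htC : t ∈ C
    · have e : C.filter (fun k => k < t + 1) = insert t (C.filter (fun k => k < t)) := by
        ext j
        simp only [Finset.mem_filter, Finset.mem_insert]
        constructor
        · rintro ⟨hj, h1⟩
          by_cases hjt : j = t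
          · exact Or.inl hjt
          · exact Or.inr ⟨hj, by omega⟩
        · rintro (rfl | ⟨hj, h1⟩)
          · exact ⟨htC, by omega⟩
          · exact ⟨hj, by omega⟩
      rw [e, Finset.sum_insert (by simp)]
      have h1 : R v C t (t + 1) = v t := R_early v C t (t + 1) le_rfl
      rw [h1]
      set θ' : F := θ - (⟪v t, θ⟫ / ‖v t‖ ^ 2) • v t with hθ'
      have h2 : ∑ k ∈ C.filter (fun k => k < t), ⟪R v C k (t + 1), θ⟫ ^ 2
          = ∑ k ∈ C.filter (fun k => k < t), ⟪R v C k t, θ'⟫ ^ 2 := by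
        apply Finset.sum_congr rfl
        intro k hk
        rw [Finset.mem_filter] at hk
        rw [R_succ, if_pos ⟨hk.2, htC⟩, hθ', inner_sub_left, inner_sub_right, inner_smul_left,
          inner_smul_right]
        simp only [RCLike.conj_to_real]
        ring
      rw [h2]
      have h3 := ih θ'
      have h4 : ‖θ'‖ ^ 2 + ⟪v t, θ⟫ ^ 2 ≤ ‖θ‖ ^ 2 := by
        by_cases hz : v t = 0
        · simp [hθ', hz]
        · have hpos : 0 < ‖v t‖ ^ 2 := by positivity
          have hle : ‖v t‖ ^ 2 ≤ 1 := by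
            have := hv t
            nlinarith [norm_nonneg (v t)]
          have hn : ‖θ'‖ ^ 2 = ‖θ‖ ^ 2 - ⟪v t, θ⟫ ^ 2 / ‖v t‖ ^ 2 := by
            rw [hθ', norm_sub_sq_real, inner_smul_right, norm_smul, mul_pow, Real.norm_eq_abs,
              sq_abs, real_inner_comm (v t) θ]
            field_simp
            ring
          rw [hn]
          have : ⟪v t, θ⟫ ^ 2 ≤ ⟪v t, θ⟫ ^ 2 / ‖v t‖ ^ 2 := by
            rw [le_div_iff₀ hpos]
            nlinarith [sq_nonneg ⟪v t, θ⟫]
          linarith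
      linarith
    · have e : C.filter (fun k => k < t + 1) = C.filter (fun k => k < t) := by
        ext j
        simp only [Finset.mem_filter]
        constructor
        · rintro ⟨hj, h1⟩
          refine ⟨hj, ?_⟩
          by_contra hjt
          have : j = t := by omega
          subst this
          exact htC hj
        · rintro ⟨hj, h1⟩
          exact ⟨hj, by omega⟩
      rw [e]
      have h2 : ∑ k ∈ C.filter (fun k => k < t), ⟪R v C k (t + 1), θ⟫ ^ 2
          = ∑ k ∈ C.filter (fun k => k < t), ⟪R v C k t, θ⟫ ^ 2 := by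
        apply Finset.sum_congr rfl
        intro k hk
        rw [R_succ, if_neg (fun h => htC h.2)]
      rw [h2]
      exact ih θ

end general

section euclid

variable {d : ℕ}

theorem R_sum_sq (v : ℕ → EuclideanSpace ℝ (Fin d)) (hv : ∀ i, ‖v i‖ ≤ 1) (C : Finset ℕ)
    (t : ℕ) : ∑ k ∈ C.filter (fun k => k < t), ‖R v C k t‖ ^ 2 ≤ d := by
  have h1 : ∀ x : EuclideanSpace ℝ (Fin d),
      ‖x‖ ^ 2 = ∑ i, ⟪x, EuclideanSpace.single i (1 : ℝ)⟫ ^ 2 := by
    intro x
    rw [EuclideanSpace.norm_sq_eq]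
    apply Finset.sum_congr rfl
    intro i _
    rw [EuclideanSpace.inner_single_right]
    simp
  calc ∑ k ∈ C.filter (fun k => k < t), ‖R v C k t‖ ^ 2
      = ∑ k ∈ C.filter (fun k => k < t),
          ∑ i, ⟪R v C k t, EuclideanSpace.single i (1 : ℝ)⟫ ^ 2 := by
        apply Finset.sum_congr rfl
        intro k _
        rw [h1]
    _ = ∑ i, ∑ k ∈ C.filter (fun k => k < t),
          ⟪R v C k t, EuclideanSpace.single i (1 : ℝ)⟫ ^ 2 := Finset.sum_comm
    _ ≤ ∑ _i : Fin d, (1 : ℝ) := by
        apply Finset.sum_le_sum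
        intro i _
        have := R_bessel v hv C t (EuclideanSpace.single i (1 : ℝ))
        simpa using this
    _ = d := by simp

/-- the lifted space -/
abbrev L (N d : ℕ) := PiLp 2 (fun _ : Fin (N + 1) => EuclideanSpace ℝ (Fin d))

/-- the lifted vectors -/
noncomputable def lift (N : ℕ) (ν : ℕ → ℝ) (v : ℕ → EuclideanSpace ℝ (Fin d)) (i : ℕ) : L N d :=
  WithLp.toLp 2 (fun t : Fin (N + 1) => Real.sqrt (ν t) • (if i < (t : ℕ) then v i else 0))

theorem lift_apply (N : ℕ) (ν : ℕ → ℝ) (v : ℕ → EuclideanSpace ℝ (Fin d)) (i : ℕ)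
    (t : Fin (N + 1)) :
    lift N ν v i t = Real.sqrt (ν t) • (if i < (t : ℕ) then v i else 0) := rfl

theorem sum_apply' {N : ℕ} (s : Finset ℕ) (f : ℕ → L N d) (t : Fin (N + 1)) :
    (∑ i ∈ s, f i) t = ∑ i ∈ s, f i t := by
  rw [WithLp.ofLp_sum, Finset.sum_apply]

theorem norm_sq_lift_sum (N : ℕ) (ν : ℕ → ℝ) (hν : ∀ k, 0 ≤ ν k)
    (v : ℕ → EuclideanSpace ℝ (Fin d)) (ε : ℕ → ℝ) :
    ‖∑ i ∈ range N, ε i • lift N ν v i‖ ^ 2
      = ∑ t ∈ range (N + 1), ν t * ‖∑ i ∈ range t, ε i • v i‖ ^ 2 := by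
  rw [PiLp.norm_sq_eq_of_L2,
    ← Fin.sum_univ_eq_sum_range (fun t => ν t * ‖∑ i ∈ range t, ε i • v i‖ ^ 2) (N + 1)]
  apply Finset.sum_congr rfl
  intro t _
  have h1 : (∑ i ∈ range N, ε i • lift N ν v i) t
      = Real.sqrt (ν t) • ∑ i ∈ range t, ε i • v i := by
    rw [sum_apply']
    have h2 : ∀ i ∈ range N, (ε i • lift N ν v i) t
        = Real.sqrt (ν t) • (if i < (t : ℕ) then ε i • v i else 0) := by
      intro i _
      change ε i • (Real.sqrt (ν t) • (if i < (t : ℕ) then v i else 0)) = _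
      split_ifs
      · rw [smul_comm]
      · simp
    rw [Finset.sum_congr rfl h2, ← Finset.smul_sum, ← Finset.sum_filter]
    congr 2
    ext i
    simp only [Finset.mem_filter, Finset.mem_range]
    have := t.isLt
    omega
  rw [h1, norm_smul, mul_pow, Real.norm_eq_abs, sq_abs, Real.sq_sqrt (hν t)]

theorem rho_lift_le (N : ℕ) (ν : ℕ → ℝ) (hν : ∀ k, 0 ≤ ν k)
    (v : ℕ → EuclideanSpace ℝ (Fin d)) (C : Finset ℕ) (k : ℕ) :
    rho (lift N ν v) k (C.filter (fun j => k < j))
      ≤ ∑ t : Fin (N + 1), ν t * (if k < (t : ℕ) then ‖R v C k t‖ ^ 2 else 0) := by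
  have hw : ∑ j ∈ C.filter (fun j => k < j), c v C k j • lift N ν v j
      ∈ W (lift N ν v) (C.filter (fun j => k < j)) := by
    apply Submodule.sum_mem
    intro j hj
    apply Submodule.smul_mem
    apply Submodule.subset_span
    exact ⟨j, by exact_mod_cast hj, rfl⟩
  refine (rho_le _ _ _ _ hw).trans (le_of_eq ?_)
  rw [PiLp.norm_sq_eq_of_L2]
  apply Finset.sum_congr rfl
  intro t _
  have h1 : (lift N ν v k - ∑ j ∈ C.filter (fun j => k < j), c v C k j • lift N ν v j) t
      = Real.sqrt (ν t) • (if k < (t : ℕ) then R v C k t else 0) := by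
    change lift N ν v k t - (∑ j ∈ C.filter (fun j => k < j), c v C k j • lift N ν v j) t = _
    rw [sum_apply']
    have h2 : ∀ j ∈ C.filter (fun j => k < j), (c v C k j • lift N ν v j) t
        = Real.sqrt (ν t) • (if j < (t : ℕ) then c v C k j • v j else 0) := by
      intro j _
      change c v C k j • (Real.sqrt (ν t) • (if j < (t : ℕ) then v j else 0)) = _
      split_ifs
      · rw [smul_comm]
      · simp
    rw [Finset.sum_congr rfl h2, ← Finset.smul_sum, lift_apply, ← smul_sub, ← Finset.sum_filter,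
      Finset.filter_filter]
    congr 1
    by_cases hkt : k < (t : ℕ)
    · rw [if_pos hkt, if_pos hkt, R_eq]
    · rw [if_neg hkt, if_neg hkt, Finset.sum_eq_zero]
      · simp
      · intro j hj
        rw [Finset.mem_filter] at hj
        omega
  rw [h1, norm_smul, mul_pow, Real.norm_eq_abs, sq_abs, Real.sq_sqrt (hν t)]
  split_ifs <;> simp

theorem G_lift_le (N : ℕ) (ν : ℕ → ℝ) (hν : ∀ k, 0 ≤ ν k)
    (v : ℕ → EuclideanSpace ℝ (Fin d)) (hv : ∀ i, ‖v i‖ ≤ 1) (C : Finset ℕ) :
    G (lift N ν v) C ≤ d * ∑ t ∈ range (N + 1), ν t := by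
  unfold G
  calc ∑ k ∈ C, rho (lift N ν v) k (C.filter (fun j => k < j))
      ≤ ∑ k ∈ C, ∑ t : Fin (N + 1), ν t * (if k < (t : ℕ) then ‖R v C k t‖ ^ 2 else 0) :=
        Finset.sum_le_sum (fun k _ => rho_lift_le N ν hν v C k)
    _ = ∑ t : Fin (N + 1), ∑ k ∈ C, ν t * (if k < (t : ℕ) then ‖R v C k t‖ ^ 2 else 0) :=
        Finset.sum_comm
    _ = ∑ t : Fin (N + 1), ν t * ∑ k ∈ C.filter (fun k => k < (t : ℕ)), ‖R v C k t‖ ^ 2 := by
        apply Finset.sum_congr rfl
        intro t _
        rw [← Finset.mul_sum, Finset.sum_filter]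
    _ ≤ ∑ t : Fin (N + 1), ν t * d := by
        apply Finset.sum_le_sum
        intro t _
        exact mul_le_mul_of_nonneg_left (R_sum_sq v hv C t) (hν t)
    _ = d * ∑ t ∈ range (N + 1), ν t := by
        rw [← Fin.sum_univ_eq_sum_range (fun t => ν t) (N + 1), Finset.mul_sum]
        apply Finset.sum_congr rfl
        intro t _
        ring

/-- **Weighted mean squares of initial sums.** -/
theorem mean_square_initial (d N : ℕ) (v : ℕ → EuclideanSpace ℝ (Fin d))
    (hv : ∀ i, ‖v i‖ ≤ 1) (ν : ℕ → ℝ) (hν : ∀ k, 0 ≤ ν k) :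
    ∃ ε : ℕ → ℝ, (∀ i, ε i = 1 ∨ ε i = -1) ∧
      ∑ k ∈ range (N + 1), ν k * ‖∑ i ∈ range k, ε i • v i‖ ^ 2
        ≤ d * ∑ k ∈ range (N + 1), ν k := by
  obtain ⟨ε, hε, C, -, h⟩ := rounding (lift N ν v) N
  refine ⟨ε, hε, ?_⟩
  rw [← norm_sq_lift_sum N ν hν v ε]
  exact h.trans (G_lift_le N ν hν v hv C)

end euclid

end Vale.Agent.Lib.Helper9.P262L
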