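import Mathlib

/-!
# A deterministic rounding lemma (Gram-Schmidt walk with smallest pivot)

For vectors `b 0, ..., b (n-1)` of a finite-dimensional real inner product space there are signs
`ε i` and a set `C` of indices below `n` such that
`‖∑ i < n, ε i • b i‖ ^ 2 ≤ G b C`, where `G b C` is the sum over `k ∈ C` of the squared distance
of `b k` to the span of the `b j` with `j ∈ C`, `k < j`.
-/

open scoped RealInnerProductSpace
open Finset

namespace Vale.Agent.Lib.Helper9.P262R

variable {E : Type*} [NormedAddCommGroup E] [InnerProductSpace ℝ E] [FiniteDimensional ℝ E]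

/-- span of the vectors with indices in `S` -/
def W (b : ℕ → E) (S : Finset ℕ) : Submodule ℝ E := Submodule.span ℝ (b '' (S : Set ℕ))

/-- squared distance of `b p` to the span of the `b j`, `j ∈ S` -/
noncomputable def rho (b : ℕ → E) (p : ℕ) (S : Finset ℕ) : ℝ :=
  ‖b p - (W b S).starProjection (b p)‖ ^ 2

theorem rho_le (b : ℕ → E) (p : ℕ) (S : Finset ℕ) (w : E) (hw : w ∈ W b S) :
    rho b p S ≤ ‖b p - w‖ ^ 2 := by
  unfold rho
  set q := (W b S).starProjection (b p) with hq
  have hq_mem : q ∈ W b S := Submodule.starProjection_apply_mem _ _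
  have horth : ⟪b p - q, q - w⟫ = 0 :=
    Submodule.starProjection_inner_eq_zero (b p) (q - w) ((W b S).sub_mem hq_mem hw)
  have h : b p - w = (b p - q) + (q - w) := by abel
  rw [h, ← real_inner_self_eq_norm_sq, ← real_inner_self_eq_norm_sq, inner_add_left,
    inner_add_right, inner_add_right, real_inner_comm (b p - q) (q - w), horth]
  have := real_inner_self_nonneg (x := q - w)
  linarith

theorem rho_nonneg (b : ℕ → E) (p : ℕ) (S : Finset ℕ) : 0 ≤ rho b p S := by
  unfold rho; positivity

theorem rho_mono (b : ℕ → E) (p : ℕ) {S T : Finset ℕ} (h : S ⊆ T) : rho b p T ≤ rho b p S := by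
  apply rho_le
  have h1 : (W b S).starProjection (b p) ∈ W b S := Submodule.starProjection_apply_mem _ _
  have h2 : W b S ≤ W b T := by
    apply Submodule.span_mono
    exact Set.image_mono (by exact_mod_cast h)
  exact h2 h1

/-- coefficients of the projection -/
theorem exists_coeff (b : ℕ → E) (p : ℕ) (S : Finset ℕ) :
    ∃ c : ℕ → ℝ, (∀ i, i ∉ S → c i = 0) ∧
      ‖b p - ∑ i ∈ S, c i • b i‖ ^ 2 = rho b p S := by
  have h1 : (W b S).starProjection (b p) ∈ W b S := Submodule.starProjection_apply_mem _ _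
  obtain ⟨c, hc⟩ := (Submodule.mem_span_image_finset_iff_exists_fun' ℝ).mp h1
  refine ⟨fun i => if i ∈ S then c i else 0, fun i hi => by simp [hi], ?_⟩
  have : ∑ i ∈ S, (if i ∈ S then c i else 0) • b i = ∑ i ∈ S, c i • b i :=
    Finset.sum_congr rfl fun i hi => by simp [hi]
  rw [this, hc]
  rfl

/-- the sum of the squared distances of `b k`, `k ∈ C`, to the span of the later members -/
noncomputable def G (b : ℕ → E) (C : Finset ℕ) : ℝ :=
  ∑ k ∈ C, rho b k (C.filter (fun j => k < j))

/-- the coordinates below `n` that are not yet equal to `1` or `-1` in absolute value -/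
noncomputable def alive (n : ℕ) (x : ℕ → ℝ) : Finset ℕ := (Finset.range n).filter (fun i => |x i| < 1)

theorem mem_alive {n : ℕ} {x : ℕ → ℝ} {i : ℕ} : i ∈ alive n x ↔ i < n ∧ |x i| < 1 := by
  simp [alive]

/-- one step: move along `u` until a coordinate reaches the boundary -/
theorem step (n : ℕ) (x u : ℕ → ℝ) (hx : ∀ i, |x i| ≤ 1) (hu : ∀ i, i ∉ alive n x → u i = 0)
    (p : ℕ) (hp : p ∈ alive n x) (hup : u p ≠ 0) :
    ∃ δ : ℝ, 0 < δ ∧ (∀ i, |x i + δ * u i| ≤ 1) ∧
      alive n (fun i => x i + δ * u i) ⊆ alive n x ∧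
      ∃ i ∈ alive n x, i ∉ alive n (fun i => x i + δ * u i) := by
  classical
  set T : Finset ℕ := (alive n x).filter (fun i => u i ≠ 0) with hT
  have hTne : T.Nonempty := ⟨p, by simp [hT, hp, hup]⟩
  set t : ℕ → ℝ := fun i => if 0 < u i then (1 - x i) / u i else (-1 - x i) / u i with ht
  obtain ⟨i0, hi0, hmin⟩ := T.exists_min_image t hTne
  have hTmem : ∀ i, i ∈ T ↔ (i ∈ alive n x ∧ u i ≠ 0) := by
    intro i; simp [hT]
  have hpos : ∀ i ∈ T, 0 < t i := by
    intro i hi
    obtain ⟨hia, hui⟩ := (hTmem i).mp hi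
    have hxi := abs_lt.mp (mem_alive.mp hia).2
    simp only [ht]
    split_ifs with h
    · exact div_pos (by linarith) h
    · have h' : u i < 0 := lt_of_le_of_ne (not_lt.mp h) hui
      exact div_pos_of_neg_of_neg (by linarith) h'
  have hkey : ∀ i ∈ T, (0 < u i → x i + t i * u i = 1) ∧ (u i < 0 → x i + t i * u i = -1) := by
    intro i hi
    obtain ⟨hia, hui⟩ := (hTmem i).mp hi
    constructor
    · intro h
      simp only [ht, if_pos h]
      field_simp
      ring
    · intro h
      have hn : ¬ 0 < u i := not_lt.mpr h.le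
      simp only [ht, if_neg hn]
      field_simp
      ring
  refine ⟨t i0, hpos i0 hi0, ?_, ?_, ?_⟩
  · intro i
    by_cases hiT : i ∈ T
    · obtain ⟨hia, hui⟩ := (hTmem i).mp hiT
      have hxi := abs_lt.mp (mem_alive.mp hia).2
      have hle := hmin i hiT
      have h0 := hpos i0 hi0
      rcases lt_or_gt_of_ne hui with h | h
      · have e := (hkey i hiT).2 h
        rw [abs_le]
        constructor
        · nlinarith
        · nlinarith
      · have e := (hkey i hiT).1 h
        rw [abs_le]
        constructor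
        · nlinarith
        · nlinarith
    · have hui : u i = 0 := by
        by_cases hia : i ∈ alive n x
        · by_contra h
          exact hiT ((hTmem i).mpr ⟨hia, h⟩)
        · exact hu i hia
      rw [hui]
      simpa using hx i
  · intro i hi
    by_contra hia
    have hui : u i = 0 := hu i hia
    have h1 := mem_alive.mp hi
    simp only [hui, mul_zero, add_zero] at h1
    exact hia (mem_alive.mpr h1)
  · obtain ⟨hia, hui⟩ := (hTmem i0).mp hi0
    refine ⟨i0, hia, ?_⟩
    intro h
    have h1 := (mem_alive.mp h).2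
    rcases lt_or_gt_of_ne hui with h' | h'
    · rw [(hkey i0 hi0).2 h'] at h1
      norm_num at h1
    · rw [(hkey i0 hi0).1 h'] at h1
      norm_num at h1

theorem G_singleton_ge (b : ℕ → E) (p : ℕ) (S : Finset ℕ) : rho b p S ≤ G b {p} := by
  unfold G
  rw [Finset.sum_singleton]
  apply rho_mono
  intro j hj
  simp only [Finset.mem_filter, Finset.mem_singleton] at hj
  omega

theorem G_insert_ge (b : ℕ → E) (p : ℕ) (C S : Finset ℕ) (hpC : ∀ k ∈ C, p < k)
    (hCS : C ⊆ S) : rho b p S + G b C ≤ G b (insert p C) := by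
  have hp : p ∉ C := fun h => lt_irrefl p (hpC p h)
  unfold G
  rw [Finset.sum_insert hp]
  have h1 : rho b p S ≤ rho b p ((insert p C).filter (fun j => p < j)) := by
    apply rho_mono
    intro j hj
    simp only [Finset.mem_filter, Finset.mem_insert] at hj
    rcases hj.1 with h | h
    · omega
    · exact hCS h
  have h2 : ∑ k ∈ C, rho b k ((insert p C).filter (fun j => k < j))
      = ∑ k ∈ C, rho b k (C.filter (fun j => k < j)) := by
    refine Finset.sum_congr rfl fun k hk => ?_
    have hkp : ¬ k < p := not_lt.mpr (hpC k hk).le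
    rw [Finset.filter_insert, if_neg hkp]
  rw [h2]
  linarith

theorem sum_move (b : ℕ → E) (n : ℕ) (x u : ℕ → ℝ) (η : ℝ) :
    ∑ i ∈ range n, (x i + η * u i) • b i
      = ∑ i ∈ range n, x i • b i + η • ∑ i ∈ range n, u i • b i := by
  rw [Finset.smul_sum, ← Finset.sum_add_distrib]
  refine Finset.sum_congr rfl fun i _ => ?_
  rw [add_smul, mul_smul]

/-- the walk: strong induction on the number of coordinates not yet rounded -/
theorem walk (b : ℕ → E) (n : ℕ) : ∀ m : ℕ, ∀ x : ℕ → ℝ, (∀ i, |x i| ≤ 1) →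
    (alive n x).card = m → ∀ p, p ∈ alive n x → (∀ j ∈ alive n x, p ≤ j) →
    ∃ ε : ℕ → ℝ, (∀ i, i < n → (ε i = 1 ∨ ε i = -1)) ∧ (∀ i, i ∉ alive n x → ε i = x i) ∧
      ∃ C : Finset ℕ, C ⊆ alive n x ∧
        ‖∑ i ∈ range n, ε i • b i‖ ^ 2 + (x p) ^ 2 * rho b p ((alive n x).erase p)
          ≤ ‖∑ i ∈ range n, x i • b i‖ ^ 2 + G b C := by
  classical
  intro m
  induction m using Nat.strong_induction_on with
  | _ m ih =>
  intro x hx hcard p hp hmin
  set A := alive n x with hA
  have hpn : p < n := (mem_alive.mp hp).1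
  obtain ⟨c, hc0, hc⟩ := exists_coeff b p (A.erase p)
  set ρ := rho b p (A.erase p) with hρ
  have hρ0 : 0 ≤ ρ := rho_nonneg _ _ _
  set u : ℕ → ℝ := fun i => if i = p then 1 else - c i with hu
  have hup : u p = 1 := by simp [hu]
  have hu0 : ∀ i, i ∉ A → u i = 0 := by
    intro i hi
    have hip : i ≠ p := fun h => hi (h ▸ hp)
    have : i ∉ A.erase p := fun h => hi (Finset.mem_of_mem_erase h)
    simp [hu, hip, hc0 i this]
  -- the image of the direction
  have hr : ∑ i ∈ range n, u i • b i = b p - ∑ i ∈ A.erase p, c i • b i := by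
    have hpr : p ∈ range n := Finset.mem_range.mpr hpn
    rw [← Finset.add_sum_erase _ _ hpr, hup, one_smul, sub_eq_add_neg, ← Finset.sum_neg_distrib]
    congr 1
    have hsub : A.erase p ⊆ (range n).erase p := by
      intro i hi
      have h1 := Finset.mem_erase.mp hi
      exact Finset.mem_erase.mpr ⟨h1.1, Finset.mem_range.mpr (mem_alive.mp h1.2).1⟩
    rw [Finset.sum_subset hsub (fun i _ hi => by rw [hc0 i hi, zero_smul, neg_zero])]
    refine Finset.sum_congr rfl fun i hi => ?_
    have hip : i ≠ p := (Finset.mem_erase.mp hi).1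
    simp [hu, hip]
  set Bx := ∑ i ∈ range n, x i • b i with hBx
  set r := ∑ i ∈ range n, u i • b i with hrdef
  have hrn : ‖r‖ ^ 2 = ρ := by rw [hr, hc]
  set s := ⟪Bx, r⟫ - x p * ρ with hs
  -- the value after a move by η
  have hval : ∀ η : ℝ, ‖∑ i ∈ range n, (x i + η * u i) • b i‖ ^ 2 - (x p + η * u p) ^ 2 * ρ
      = ‖Bx‖ ^ 2 - (x p) ^ 2 * ρ + 2 * η * s := by
    intro η
    rw [sum_move, ← hBx, ← hrdef, norm_add_sq_real, norm_smul, inner_smul_right, hup, mul_pow,
      hrn, Real.norm_eq_abs, sq_abs, hs]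
    ring
  -- choose the better end point
  have hstar : ∃ η : ℝ, (∀ i, |x i + η * u i| ≤ 1) ∧
      alive n (fun i => x i + η * u i) ⊆ A ∧
      (∃ i ∈ A, i ∉ alive n (fun i => x i + η * u i)) ∧ η * s ≤ 0 := by
    by_cases hs0 : s ≤ 0
    · obtain ⟨δ, hδ, h1, h2, h3⟩ := step n x u hx hu0 p hp (by rw [hup]; norm_num)
      exact ⟨δ, h1, h2, h3, mul_nonpos_of_nonneg_of_nonpos hδ.le hs0⟩
    · obtain ⟨δ, hδ, h1, h2, h3⟩ := step n x (fun i => - u i) hx
        (fun i hi => by simp [hu0 i hi]) p hp (by simp [hup])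
      have hfun : (fun i => x i + δ * -u i) = (fun i => x i + (-δ) * u i) := by
        funext i; ring
      rw [hfun] at h2 h3
      refine ⟨-δ, fun i => ?_, h2, h3, ?_⟩
      · have := h1 i
        have e : x i + δ * -u i = x i + -δ * u i := by ring
        rwa [e] at this
      · have : 0 < s := not_le.mp hs0
        nlinarith
  obtain ⟨η, hx', hsub, ⟨i1, hi1A, hi1⟩, hηs⟩ := hstar
  set x' : ℕ → ℝ := fun i => x i + η * u i with hx'def
  set A' := alive n x' with hA'
  have hx'off : ∀ i, i ∉ A → x' i = x i := by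
    intro i hi
    simp [hx'def, hu0 i hi]
  have hcard' : A'.card < m := by
    rw [← hcard]
    exact Finset.card_lt_card ⟨hsub, fun h => hi1 (h hi1A)⟩
  have hmain : ‖∑ i ∈ range n, x' i • b i‖ ^ 2 - (x' p) ^ 2 * ρ ≤ ‖Bx‖ ^ 2 - (x p) ^ 2 * ρ := by
    have := hval η
    simp only [hx'def]
    linarith
  have hsq1 : ∀ i, i < n → i ∉ A' → (x' i) ^ 2 = 1 ∧ (x' i = 1 ∨ x' i = -1) := by
    intro i hin hi
    have h1 : ¬ |x' i| < 1 := fun h => hi (mem_alive.mpr ⟨hin, h⟩)
    have h2 : |x' i| = 1 := le_antisymm (hx' i) (not_lt.mp h1)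
    have h3 : x' i = 1 ∨ x' i = -1 := by
      rcases abs_cases (x' i) with ⟨h, _⟩ | ⟨h, _⟩
      · left; linarith
      · right; linarith
    refine ⟨?_, h3⟩
    rcases h3 with h | h <;> rw [h] <;> norm_num
  by_cases hne : A'.Nonempty
  · -- continue with the smallest coordinate that is left
    set p' := A'.min' hne with hp'
    have hp'mem : p' ∈ A' := Finset.min'_mem _ _
    obtain ⟨ε, hε1, hε2, C', hC', hineq⟩ := ih A'.card hcard' x' hx' rfl p' hp'mem
      (fun j hj => Finset.min'_le _ _ hj)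
    have hεoff : ∀ i, i ∉ A → ε i = x i := by
      intro i hi
      rw [hε2 i (fun h => hi (hsub h)), hx'off i hi]
    by_cases hpA' : p ∈ A'
    · -- the pivot is still not rounded
      have hpp : p' = p := le_antisymm (Finset.min'_le _ _ hpA') (hmin p' (hsub hp'mem))
      rw [hpp] at hineq
      have hmono : ρ ≤ rho b p (A'.erase p) := by
        apply rho_mono
        intro j hj
        have h1 := Finset.mem_erase.mp hj
        exact Finset.mem_erase.mpr ⟨h1.1, hsub h1.2⟩
      have h3 : (x' p) ^ 2 * ρ ≤ (x' p) ^ 2 * rho b p (A'.erase p) :=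
        mul_le_mul_of_nonneg_left hmono (sq_nonneg _)
      refine ⟨ε, hε1, hεoff, C', hC'.trans hsub, ?_⟩
      linarith
    · -- the pivot has been rounded
      have hsq := (hsq1 p hpn hpA').1
      have hnn : 0 ≤ (x' p') ^ 2 * rho b p' (A'.erase p') :=
        mul_nonneg (sq_nonneg _) (rho_nonneg _ _ _)
      have hCp : ∀ k ∈ C', p < k := by
        intro k hk
        have hkA' : k ∈ A' := hC' hk
        have hkp : k ≠ p := fun h => hpA' (h ▸ hkA')
        exact lt_of_le_of_ne (hmin k (hsub hkA')) (Ne.symm hkp)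
      have hCS : C' ⊆ A.erase p := by
        intro k hk
        have hkA' : k ∈ A' := hC' hk
        exact Finset.mem_erase.mpr ⟨fun h => hpA' (h ▸ hkA'), hsub hkA'⟩
      have hG := G_insert_ge b p C' (A.erase p) hCp hCS
      refine ⟨ε, hε1, hεoff, insert p C', ?_, ?_⟩
      · intro k hk
        rcases Finset.mem_insert.mp hk with h | h
        · rw [h]; exact hp
        · exact hsub (hC' h)
      · rw [hsq] at hmain
        linarith
  · -- everything is rounded
    have hempty : A' = ∅ := Finset.not_nonempty_iff_eq_empty.mp hne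
    have hpA' : p ∉ A' := by rw [hempty]; simp
    have hsq := (hsq1 p hpn hpA').1
    have hG := G_singleton_ge b p (A.erase p)
    refine ⟨x', fun i hin => (hsq1 i hin (by rw [hempty]; simp)).2, hx'off, {p}, ?_, ?_⟩
    · intro k hk
      rw [Finset.mem_singleton.mp hk]; exact hp
    · rw [hsq] at hmain
      linarith

/-- **Rounding lemma.** -/
theorem rounding (b : ℕ → E) (n : ℕ) :
    ∃ ε : ℕ → ℝ, (∀ i, ε i = 1 ∨ ε i = -1) ∧ ∃ C : Finset ℕ, C ⊆ range n ∧
      ‖∑ i ∈ range n, ε i • b i‖ ^ 2 ≤ G b C := by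
  classical
  rcases Nat.eq_zero_or_pos n with hn | hn
  · subst hn
    refine ⟨fun _ => 1, fun _ => Or.inl rfl, ∅, by simp, ?_⟩
    simp [G]
  · have hal : alive n (fun _ => (0 : ℝ)) = range n := by
      ext i; simp [mem_alive]
    have h0 : (0 : ℕ) ∈ alive n (fun _ => (0 : ℝ)) := by rw [hal]; simpa using hn
    obtain ⟨ε, hε1, -, C, hC, hineq⟩ := walk b n _ (fun _ => (0 : ℝ)) (by simp) rfl 0 h0
      (fun j _ => Nat.zero_le j)
    refine ⟨fun i => if i < n then ε i else 1, fun i => ?_, C, by rwa [hal] at hC, ?_⟩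
    · by_cases h : i < n
      · simpa [h] using hε1 i h
      · simp [h]
    · have e : ∑ i ∈ range n, (if i < n then ε i else 1) • b i = ∑ i ∈ range n, ε i • b i :=
        Finset.sum_congr rfl fun i hi => by simp [Finset.mem_range.mp hi]
      rw [e]
      simp only [zero_smul, Finset.sum_const_zero, norm_zero] at hineq
      nlinarith [rho_nonneg b 0 ((alive n fun _ => (0:ℝ)).erase 0)]

end Vale.Agent.Lib.Helper9.P262R
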