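import Vale.Agent.Lib.Helper9.P262.Lifted

/-!
# Finitely many test pairs

For unit-ball vectors `v 0, v 1, ...` of a real inner product space and finitely many test pairs
`κ r`, `θ r` (a length and a vector) there are signs with
`∑ r, ⟪∑ i < κ r, ε i • v i, θ r⟫ ^ 2 ≤ ∑ r, ‖θ r‖ ^ 2`.

The vectors are lifted to the Euclidean space with one coordinate for each test pair (coordinate
`r` of the lift of `v i` is `⟪v i, θ r⟫` when `i < κ r` and `0` otherwise); the rounding lemma and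
the Bessel-type inequality for sequential residuals give the bound.
-/

open scoped RealInnerProductSpace
open Finset

namespace Vale.Agent.Lib.Helper9.P262T

open Vale.Agent.Lib.Helper9.P262R Vale.Agent.Lib.Helper9.P262L

variable {F : Type*} [NormedAddCommGroup F] [InnerProductSpace ℝ F]

/-- the lifted vectors for finitely many test pairs -/
noncomputable def liftT {n : ℕ} (v : ℕ → F) (κ : Fin n → ℕ) (θ : Fin n → F) (i : ℕ) :
    EuclideanSpace ℝ (Fin n) :=
  WithLp.toLp 2 (fun r => if i < κ r then ⟪v i, θ r⟫ else 0)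

theorem liftT_apply {n : ℕ} (v : ℕ → F) (κ : Fin n → ℕ) (θ : Fin n → F) (i : ℕ) (r : Fin n) :
    liftT v κ θ i r = if i < κ r then ⟪v i, θ r⟫ else 0 := rfl

theorem sumT_apply {n : ℕ} (s : Finset ℕ) (f : ℕ → EuclideanSpace ℝ (Fin n)) (r : Fin n) :
    (∑ i ∈ s, f i) r = ∑ i ∈ s, f i r := by
  rw [WithLp.ofLp_sum, Finset.sum_apply]

theorem norm_sq_liftT_sum {n : ℕ} (v : ℕ → F) (N : ℕ) (κ : Fin n → ℕ) (hκ : ∀ r, κ r ≤ N)
    (θ : Fin n → F) (ε : ℕ → ℝ) :
    ‖∑ i ∈ range N, ε i • liftT v κ θ i‖ ^ 2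
      = ∑ r, ⟪∑ i ∈ range (κ r), ε i • v i, θ r⟫ ^ 2 := by
  rw [EuclideanSpace.real_norm_sq_eq]
  apply Finset.sum_congr rfl
  intro r _
  congr 1
  rw [sumT_apply]
  have h2 : ∀ i ∈ range N, (ε i • liftT v κ θ i) r
      = if i < κ r then ε i * ⟪v i, θ r⟫ else 0 := by
    intro i _
    change ε i * (if i < κ r then ⟪v i, θ r⟫ else 0) = _
    split_ifs <;> simp
  have h3 : (range N).filter (fun i => i < κ r) = range (κ r) := by
    ext i
    simp only [Finset.mem_filter, Finset.mem_range]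
    have := hκ r
    omega
  rw [Finset.sum_congr rfl h2, ← Finset.sum_filter, sum_inner, h3]
  apply Finset.sum_congr rfl
  intro i _
  rw [inner_smul_left]
  simp

theorem rho_liftT_le {n : ℕ} (v : ℕ → F) (κ : Fin n → ℕ) (θ : Fin n → F) (C : Finset ℕ)
    (k : ℕ) :
    rho (liftT v κ θ) k (C.filter (fun j => k < j))
      ≤ ∑ r, (if k < κ r then ⟪R v C k (κ r), θ r⟫ ^ 2 else 0) := by
  have hw : ∑ j ∈ C.filter (fun j => k < j), c v C k j • liftT v κ θ j
      ∈ W (liftT v κ θ) (C.filter (fun j => k < j)) := by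
    apply Submodule.sum_mem
    intro j hj
    apply Submodule.smul_mem
    apply Submodule.subset_span
    exact ⟨j, by exact_mod_cast hj, rfl⟩
  refine (rho_le _ _ _ _ hw).trans (le_of_eq ?_)
  rw [EuclideanSpace.real_norm_sq_eq]
  apply Finset.sum_congr rfl
  intro r _
  have h1 : (liftT v κ θ k - ∑ j ∈ C.filter (fun j => k < j), c v C k j • liftT v κ θ j) r
      = if k < κ r then ⟪R v C k (κ r), θ r⟫ else 0 := by
    change liftT v κ θ k r - (∑ j ∈ C.filter (fun j => k < j), c v C k j • liftT v κ θ j) r = _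
    rw [sumT_apply]
    have h2 : ∀ j ∈ C.filter (fun j => k < j), (c v C k j • liftT v κ θ j) r
        = if j < κ r then c v C k j * ⟪v j, θ r⟫ else 0 := by
      intro j _
      change c v C k j * (if j < κ r then ⟪v j, θ r⟫ else 0) = _
      split_ifs <;> simp
    rw [Finset.sum_congr rfl h2, liftT_apply, ← Finset.sum_filter, Finset.filter_filter]
    by_cases hkt : k < κ r
    · rw [if_pos hkt, if_pos hkt, R_eq, inner_sub_left, sum_inner]
      congr 1
      apply Finset.sum_congr rfl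
      intro j _
      rw [inner_smul_left]
      simp
    · rw [if_neg hkt, if_neg hkt, Finset.sum_eq_zero]
      · simp
      · intro j hj
        rw [Finset.mem_filter] at hj
        omega
  rw [h1]
  split_ifs <;> simp

theorem G_liftT_le {n : ℕ} (v : ℕ → F) (hv : ∀ i, ‖v i‖ ≤ 1) (κ : Fin n → ℕ) (θ : Fin n → F)
    (C : Finset ℕ) : G (liftT v κ θ) C ≤ ∑ r, ‖θ r‖ ^ 2 := by
  unfold G
  calc ∑ k ∈ C, rho (liftT v κ θ) k (C.filter (fun j => k < j))
      ≤ ∑ k ∈ C, ∑ r, (if k < κ r then ⟪R v C k (κ r), θ r⟫ ^ 2 else 0) :=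
        Finset.sum_le_sum (fun k _ => rho_liftT_le v κ θ C k)
    _ = ∑ r, ∑ k ∈ C, (if k < κ r then ⟪R v C k (κ r), θ r⟫ ^ 2 else 0) := Finset.sum_comm
    _ = ∑ r, ∑ k ∈ C.filter (fun k => k < κ r), ⟪R v C k (κ r), θ r⟫ ^ 2 := by
        apply Finset.sum_congr rfl
        intro r _
        rw [Finset.sum_filter]
    _ ≤ ∑ r, ‖θ r‖ ^ 2 := Finset.sum_le_sum (fun r _ => R_bessel v hv C (κ r) (θ r))

/-- **Finitely many test pairs.** -/
theorem multi_test (v : ℕ → F) (hv : ∀ i, ‖v i‖ ≤ 1) (N n : ℕ) (κ : Fin n → ℕ)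
    (hκ : ∀ r, κ r ≤ N) (θ : Fin n → F) :
    ∃ ε : ℕ → ℝ, (∀ i, ε i = 1 ∨ ε i = -1) ∧
      ∑ r, ⟪∑ i ∈ range (κ r), ε i • v i, θ r⟫ ^ 2 ≤ ∑ r, ‖θ r‖ ^ 2 := by
  obtain ⟨ε, hε, C, -, h⟩ := rounding (liftT v κ θ) N
  refine ⟨ε, hε, ?_⟩
  rw [← norm_sq_liftT_sum v N κ hκ θ ε]
  exact h.trans (G_liftT_le v hv κ θ C)

end Vale.Agent.Lib.Helper9.P262T
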